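import Mathlib

/-!
# P217 (helper260): invariants of finite-index subgroups

`G` a group acting on a noetherian ring `R` such that the `G`-invariant radical ideals are `R` and
the members of a finite chain of prime ideals `I_0 ⊆ … ⊆ I_n`.  Then the same holds for every
finite-index subgroup of `G`, and finitely generated modules with semilinear automorphisms have a
Landweber filtration.
-/

namespace Vale.Agent.P217.H260

open Pointwise

/-- the hypothesis: classification of the invariant radical ideals. -/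
structure Chain (G : Type*) {R : Type*} [CommRing R] [Group G] [MulSemiringAction G R] (n : ℕ)
    (I : ℕ → Ideal R) : Prop where
  classify : ∀ J : Ideal R, J.IsRadical → (∀ g : G, g • J = J) → J = ⊤ ∨ ∃ h ≤ n, J = I h
  prime : ∀ h ≤ n, (I h).IsPrime
  inv : ∀ h ≤ n, ∀ g : G, g • I h = I h
  mono : ∀ h h', h ≤ h' → h' ≤ n → I h ≤ I h'

variable {R G : Type*} [CommRing R] [Group G] [MulSemiringAction G R] {n : ℕ} {I : ℕ → Ideal R}

theorem Chain.of_finite_orbit (hC : Chain G n I) {P : Ideal R} (hP : P.IsPrime)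
    (hfin : (MulAction.orbit G P).Finite) : ∃ h ≤ n, P = I h := by
  classical
  set S := hfin.toFinset with hS
  set J := S.inf id with hJdef
  have hmem : ∀ Q, Q ∈ S ↔ ∃ g : G, g • P = Q := by
    intro Q
    rw [hS, Set.Finite.mem_toFinset, MulAction.mem_orbit_iff]
  have hxJ : ∀ x, x ∈ J ↔ ∀ g : G, x ∈ g • P := by
    intro x
    rw [hJdef, Submodule.mem_finsetInf]
    constructor
    · intro h g
      exact h _ ((hmem _).2 ⟨g, rfl⟩)
    · intro h Q hQ
      obtain ⟨g, rfl⟩ := (hmem Q).1 hQ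
      exact h g
  have hJr : J.IsRadical := by
    rintro x ⟨k, hk⟩
    rw [hxJ] at hk ⊢
    intro g
    exact (Ideal.IsPrime.smul (H := hP) g).mem_of_pow_mem k (hk g)
  have hJi : ∀ g : G, g • J = J := by
    intro g
    ext x
    rw [Ideal.mem_pointwise_smul_iff_inv_smul_mem, hxJ, hxJ]
    constructor
    · intro h k
      have h1 := h (g⁻¹ * k)
      rw [mul_smul, Ideal.smul_mem_pointwise_smul_iff] at h1
      exact h1
    · intro h k
      have h1 := h (g * k)
      rw [mul_smul] at h1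
      exact Ideal.mem_pointwise_smul_iff_inv_smul_mem.1 h1
  have hJP : J ≤ P := fun x hx => by simpa using (hxJ x).1 hx 1
  rcases hC.classify J hJr hJi with h | ⟨h, hh, hJh⟩
  · exact absurd (top_le_iff.1 (h ▸ hJP)) hP.ne_top
  · have hpr := hC.prime h hh
    rw [← hJh] at hpr
    obtain ⟨Q, hQ, hQJ⟩ := (hpr.inf_le' (s := S) (f := id)).1 le_rfl
    obtain ⟨g, rfl⟩ := (hmem Q).1 hQ
    have hEq : g • P = J := le_antisymm hQJ (fun x hx => (hxJ x).1 hx g)
    refine ⟨h, hh, ?_⟩
    have h3 : P = g⁻¹ • J := by rw [← hEq, inv_smul_smul]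
    rw [h3, hJi, hJh]

theorem Chain.of_finite_set (hC : Chain G n I) (U : Subgroup G) [U.FiniteIndex]
    {S : Set (Ideal R)} (hS : S.Finite) (hU : ∀ u ∈ U, ∀ P ∈ S, u • P ∈ S) {P : Ideal R}
    (hPS : P ∈ S) (hP : P.IsPrime) : ∃ h ≤ n, P = I h := by
  apply hC.of_finite_orbit hP
  have h1 : (⋃ q : G ⧸ U, (fun Q : Ideal R => q.out • Q) '' S).Finite :=
    Set.finite_iUnion fun q => hS.image _
  refine h1.subset ?_
  rintro _ ⟨g, rfl⟩
  obtain ⟨u, hu⟩ := QuotientGroup.mk_out_eq_mul U g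
  refine Set.mem_iUnion.2 ⟨QuotientGroup.mk g, (u : G)⁻¹ • P, hU _ (U.inv_mem u.2) P hPS, ?_⟩
  show (QuotientGroup.mk g : G ⧸ U).out • ((u : G)⁻¹ • P) = g • P
  rw [hu, smul_smul, mul_assoc, mul_inv_cancel, mul_one]

theorem Chain.prime_of (hC : Chain G n I) (U : Subgroup G) [U.FiniteIndex] {P : Ideal R}
    (hP : P.IsPrime) (hPU : ∀ u ∈ U, u • P = P) : ∃ h ≤ n, P = I h := by
  refine hC.of_finite_set U (Set.finite_singleton P) ?_ rfl hP
  rintro u hu Q rfl
  exact hPU u hu

theorem Chain.radical_of [IsNoetherianRing R] (hC : Chain G n I) (U : Subgroup G) [U.FiniteIndex]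
    {J : Ideal R} (hJ : J.IsRadical) (hJU : ∀ u ∈ U, u • J = J) : J = ⊤ ∨ ∃ h ≤ n, J = I h := by
  by_cases htop : J = ⊤
  · exact Or.inl htop
  right
  have hfin : J.minimalPrimes.Finite := Ideal.finite_minimalPrimes_of_isNoetherianRing R J
  have hperm : ∀ u ∈ U, ∀ P ∈ J.minimalPrimes, u • P ∈ J.minimalPrimes := by
    intro u hu P hP
    refine ⟨⟨Ideal.IsPrime.smul (H := hP.1.1) u, ?_⟩, ?_⟩
    · rw [← hJU u hu]
      exact Ideal.pointwise_smul_le_pointwise_smul_iff.2 hP.1.2
    · rintro Q ⟨hQ1, hQ2⟩ hQ3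
      have h1 : u⁻¹ • Q ≤ P := by
        rw [← Ideal.subset_pointwise_smul_iff]
        exact hQ3
      have h2 : J ≤ u⁻¹ • Q := by
        rw [← Ideal.pointwise_smul_subset_iff, hJU u hu]
        exact hQ2
      have h3 := hP.2 ⟨Ideal.IsPrime.smul (H := hQ1) u⁻¹, h2⟩ h1
      rwa [← Ideal.pointwise_smul_subset_iff] at h3
  have key : ∀ P ∈ J.minimalPrimes, ∃ h ≤ n, P = I h := fun P hP =>
    hC.of_finite_set U hfin hperm hP hP.1.1
  obtain ⟨P, hP⟩ := Ideal.nonempty_minimalPrimes htop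
  have hall : ∀ Q ∈ J.minimalPrimes, Q = P := by
    intro Q hQ
    obtain ⟨h, hh, hPh⟩ := key P hP
    obtain ⟨h', hh', hQh'⟩ := key Q hQ
    rcases le_total h h' with hle | hle
    · have hPQ : P ≤ Q := by rw [hPh, hQh']; exact hC.mono _ _ hle hh'
      exact le_antisymm (hQ.2 ⟨hP.1.1, hP.1.2⟩ hPQ) hPQ
    · have hQP : Q ≤ P := by rw [hPh, hQh']; exact hC.mono _ _ hle hh
      exact le_antisymm hQP (hP.2 ⟨hQ.1.1, hQ.1.2⟩ hQP)
  obtain ⟨h, hh, hPh⟩ := key P hP
  refine ⟨h, hh, ?_⟩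
  rw [← hPh]
  have h5 : sInf J.minimalPrimes = J := by
    rw [Ideal.sInf_minimalPrimes, hJ.radical]
  have h6 : J.minimalPrimes = {P} := Set.eq_singleton_iff_unique_mem.2 ⟨hP, hall⟩
  rw [← h5, h6, sInf_singleton]

section Modules

variable {M : Type*} [AddCommGroup M] [Module R M]

/-- `T` is semilinear over `g`. -/
def IsSemilin (g : G) (T : M ≃+ M) : Prop := ∀ (r : R) (m : M), T (r • m) = (g • r) • T m

/-- `N` is stable under all semilinear automorphisms of `M`. -/
def Canonical (G : Type*) {R M : Type*} [CommRing R] [Group G] [MulSemiringAction G R]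
    [AddCommGroup M] [Module R M] (N : Submodule R M) : Prop :=
  ∀ (g : G) (T : M ≃+ M), IsSemilin (R := R) g T → ∀ m, m ∈ N ↔ T m ∈ N

theorem colon_smul {g : G} {T : M ≃+ M} (hT : IsSemilin (R := R) g T) {N : Submodule R M}
    (hN : ∀ m, m ∈ N ↔ T m ∈ N) (x : M) : g • (N.colon {x}) = N.colon {T x} := by
  ext r
  rw [Ideal.mem_pointwise_smul_iff_inv_smul_mem, Submodule.mem_colon_singleton,
    Submodule.mem_colon_singleton, hN, hT, smul_inv_smul]

theorem mem_associated_iff [IsNoetherianRing R] {N : Submodule R M} {P : Ideal R} :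
    P ∈ associatedPrimes R (M ⧸ N) ↔ P.IsPrime ∧ ∃ x : M, P = N.colon {x} := by
  rw [AssociatedPrimes.mem_iff, isAssociatedPrime_iff]
  have key : ∀ x : M, (⊥ : Submodule R (M ⧸ N)).colon {N.mkQ x} = N.colon {x} := by
    intro x
    ext r
    rw [Submodule.mem_colon_singleton, Submodule.mem_colon_singleton, ← map_smul,
      Submodule.mem_bot, Submodule.mkQ_apply, Submodule.Quotient.mk_eq_zero]
  constructor
  · rintro ⟨h1, y, hy⟩
    obtain ⟨x, rfl⟩ := N.mkQ_surjective y
    exact ⟨h1, x, by rw [hy, key]⟩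
  · rintro ⟨h1, x, hx⟩
    exact ⟨h1, N.mkQ x, by rw [hx, key]⟩

theorem Chain.associated [IsNoetherianRing R] [Module.Finite R M] (hC : Chain G n I)
    (U : Subgroup G) [U.FiniteIndex] (hM : ∀ u ∈ U, ∃ T : M ≃+ M, IsSemilin (R := R) u T)
    {N : Submodule R M} (hN : Canonical G N) {P : Ideal R}
    (hP : P ∈ associatedPrimes R (M ⧸ N)) : ∃ h ≤ n, P = I h := by
  refine hC.of_finite_set U (associatedPrimes.finite R (M ⧸ N)) ?_ hP
    (mem_associated_iff.1 hP).1
  intro u hu Q hQ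
  obtain ⟨h1, x, rfl⟩ := mem_associated_iff.1 hQ
  obtain ⟨T, hT⟩ := hM u hu
  refine mem_associated_iff.2 ⟨Ideal.IsPrime.smul (H := h1) u, T x, ?_⟩
  exact colon_smul hT (hN u T hT) x

theorem canonical_bot : Canonical G (⊥ : Submodule R M) := by
  intro g T _ m
  rw [Submodule.mem_bot, Submodule.mem_bot, EmbeddingLike.map_eq_zero_iff]

theorem Chain.step [IsNoetherianRing R] [Module.Finite R M] (hC : Chain G n I)
    (U : Subgroup G) [U.FiniteIndex] (hM : ∀ u ∈ U, ∃ T : M ≃+ M, IsSemilin (R := R) u T)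
    {N : Submodule R M} (hN : Canonical G N) (hne : N ≠ ⊤) :
    ∃ N' : Submodule R M, N < N' ∧ Canonical G N' ∧
      ∃ h ≤ n, ∀ m ∈ N', ∀ r : R, r • m ∈ N ↔ r ∈ I h ∨ m ∈ N := by
  set A : Set ℕ := {h | h ≤ n ∧ I h ∈ associatedPrimes R (M ⧸ N)} with hA
  have hAne : A.Nonempty := by
    have := Submodule.Quotient.nontrivial_iff.mpr hne
    obtain ⟨P, hP⟩ := associatedPrimes.nonempty R (M ⧸ N)
    obtain ⟨h, hh, rfl⟩ := hC.associated U hM hN hP
    exact ⟨h, hh, hP⟩
  have hAb : BddAbove A := ⟨n, fun h hh => hh.1⟩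
  set h := sSup A with hh
  have hhA : h ∈ A := Nat.sSup_mem hAne hAb
  obtain ⟨hn, hass⟩ := hhA
  obtain ⟨-, x, hx⟩ := mem_associated_iff.1 hass
  have hxN : x ∉ N := by
    intro hxN
    have h1 : (1 : R) ∈ N.colon {x} := by
      rw [Submodule.mem_colon_singleton, one_smul]; exact hxN
    rw [← hx] at h1
    exact (hC.prime h hn).ne_top ((Ideal.eq_top_iff_one _).2 h1)
  let N' : Submodule R M :=
    { carrier := {m | ∀ r ∈ I h, r • m ∈ N}
      add_mem' := fun {a b} ha hb r hr => by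
        rw [smul_add]; exact N.add_mem (ha r hr) (hb r hr)
      zero_mem' := fun r _ => by rw [smul_zero]; exact N.zero_mem
      smul_mem' := fun c m hm r hr => by
        rw [smul_comm]; exact N.smul_mem c (hm r hr) }
  have hN' : ∀ m, m ∈ N' ↔ ∀ r ∈ I h, r • m ∈ N := fun m => Iff.rfl
  refine ⟨N', ?_, ?_, h, hn, ?_⟩
  · refine lt_of_le_of_ne (fun m hm => (hN' m).2 fun r _ => N.smul_mem r hm) ?_
    intro hEq
    apply hxN
    rw [hEq, hN']
    intro r hr
    rw [hx, Submodule.mem_colon_singleton] at hr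
    exact hr
  · intro g T hT m
    rw [hN', hN']
    constructor
    · intro hm r hr
      have h1 : g⁻¹ • r ∈ I h := by
        rw [← Ideal.mem_pointwise_smul_iff_inv_smul_mem, hC.inv h hn g]
        exact hr
      have h2 := (hN g T hT _).1 (hm _ h1)
      rw [hT, smul_inv_smul] at h2
      exact h2
    · intro hm r hr
      have h1 : g • r ∈ I h := by
        rw [← hC.inv h hn g, Ideal.smul_mem_pointwise_smul_iff]
        exact hr
      have h2 := hm _ h1
      rw [← hT] at h2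
      exact (hN g T hT _).2 h2
  · intro m hm r
    constructor
    · intro hr
      by_contra hcon
      push Not at hcon
      obtain ⟨hr1, hr2⟩ := hcon
      have hne0 : N.mkQ m ≠ 0 := by
        rw [Submodule.mkQ_apply, Ne, Submodule.Quotient.mk_eq_zero]
        exact hr2
      obtain ⟨P, hP, hle⟩ := exists_le_isAssociatedPrime_of_isNoetherianRing R (N.mkQ m) hne0
      have key : ∀ s : R, s ∈ (⊥ : Submodule R (M ⧸ N)).colon {N.mkQ m} ↔ s • m ∈ N := by
        intro s
        rw [Submodule.mem_colon_singleton, ← map_smul, Submodule.mem_bot, Submodule.mkQ_apply,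
          Submodule.Quotient.mk_eq_zero]
      obtain ⟨h', hh', rfl⟩ := hC.associated U hM hN hP
      have h1 : h' ≤ h := le_csSup hAb ⟨hh', hP⟩
      exact hr1 (hC.mono _ _ h1 hn (hle ((key r).2 hr)))
    · rintro (hr | hr)
      · exact (hN' m).1 hm r hr
      · exact N.smul_mem r hr

theorem Chain.filtration [IsNoetherianRing R] [Module.Finite R M] (hC : Chain G n I)
    (U : Subgroup G) [U.FiniteIndex] (hM : ∀ u ∈ U, ∃ T : M ≃+ M, IsSemilin (R := R) u T)
    (N : Submodule R M) (hN : Canonical G N) :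
    ∃ (k : ℕ) (s : ℕ → Submodule R M), s 0 = N ∧ s k = ⊤ ∧ ∀ i < k, s i < s (i + 1) ∧
      Canonical G (s i) ∧ ∃ h ≤ n, ∀ m ∈ s (i + 1), ∀ r : R, r • m ∈ s i ↔ r ∈ I h ∨ m ∈ s i := by
  induction N using WellFoundedGT.induction with
  | ind N ih =>
    by_cases htop : N = ⊤
    · exact ⟨0, fun _ => N, rfl, htop, fun i hi => absurd hi (Nat.not_lt_zero i)⟩
    · obtain ⟨N', hlt, hcan, h, hh, hstep⟩ := hC.step U hM hN htop
      obtain ⟨k, s, hs0, hsk, hs⟩ := ih N' hlt hcan
      refine ⟨k + 1, fun i => if i = 0 then N else s (i - 1), by simp, by simp [hsk], ?_⟩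
      intro i hi
      rcases Nat.eq_zero_or_pos i with rfl | hi0
      · simp only [if_true, zero_add, one_ne_zero, if_false, Nat.sub_self, hs0]
        exact ⟨hlt, hN, h, hh, hstep⟩
      · obtain ⟨j, rfl⟩ := Nat.exists_eq_succ_of_ne_zero (Nat.pos_iff_ne_zero.1 hi0)
        have := hs j (by omega)
        simpa using this

end Modules

end Vale.Agent.P217.H260
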