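import Vale.Agent.P217.LT

/-!
# P217: definitions for subgroups of the extended Morava stabilizer group (helper260)
-/

namespace Vale.Agent.P217.LT

open MvPowerSeries

variable (p n : ℕ) [Fact p.Prime]

/-- The group of ring automorphisms of `E₀` through which the extended Morava stabilizer group
`G_n` acts: the subgroup of `Aut(E₀)` generated by the actions of the elements `(γ, σ)` of
`G_n`. -/
noncomputable def actionGroup (Γ : FormalGroup (ZMod p)) (F : FormalGroup (E0 p n)) :
    Subgroup (RingAut (E0 p n)) :=
  Subgroup.closure {φ | ∃ σ γ, Acts p n Γ F σ γ (φ : E0 p n →+* E0 p n)}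

/-- The congruence subgroup of level `N`: generated by the actions of the elements `(γ, id)` of
`G_n` with `γ(X) ≡ X mod X^(N+1)`. -/
noncomputable def congruenceGroup (Γ : FormalGroup (ZMod p)) (F : FormalGroup (E0 p n)) (N : ℕ) :
    Subgroup (RingAut (E0 p n)) :=
  Subgroup.closure {φ | ∃ γ : PowerSeries (GaloisField p n),
    (∀ i ≤ N, PowerSeries.coeff i γ = PowerSeries.coeff i PowerSeries.X) ∧
      Acts p n Γ F (RingEquiv.refl _) γ (φ : E0 p n →+* E0 p n)}

variable {p n}

/-- `J` is invariant under the group `U` of automorphisms of `E₀`. -/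
def InvariantUnder (U : Subgroup (RingAut (E0 p n))) (J : Ideal (E0 p n)) : Prop :=
  ∀ φ ∈ U, J.map (φ : E0 p n →+* E0 p n) = J

/-- The additive automorphism `T` of the `E₀`-module `M` is semilinear over `φ`. -/
def IsSemilinear {M : Type*} [AddCommGroup M] [Module (E0 p n) M] (φ : RingAut (E0 p n))
    (T : M ≃+ M) : Prop :=
  ∀ (r : E0 p n) (m : M), T (r • m) = φ r • T m

end Vale.Agent.P217.LT
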