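import Vale.Agent.P217.H260.Abs
import Vale.Agent.P217.H260.Defs
import Vale.Agent.P217.Bdl.B3

/-!
# P217 (helper260): finite-index subgroups of the extended Morava stabilizer group
-/

namespace Vale.Agent.P217.H260

open MvPowerSeries Vale.Agent.P217 Pointwise

variable {p n : ℕ} [Fact p.Prime] {Γ : FormalGroup (ZMod p)} {F : FormalGroup (P217.E0 p n)}

/-- `φ` underlies a pair `(φ, g)`. -/
def ActIso (F : FormalGroup (P217.E0 p n)) (φ : RingAut (P217.E0 p n)) : Prop :=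
  ∃ g, P217.IsIso F (F.map (φ : P217.E0 p n →+* P217.E0 p n)) g

theorem acts_iff_actIso (hF : P217.IsUniversalDeformation p n Γ F) (φ : RingAut (P217.E0 p n)) :
    (∃ σ γ, LT.Acts p n Γ F σ γ (φ : P217.E0 p n →+* P217.E0 p n)) ↔ ActIso F φ := by
  constructor
  · rintro ⟨σ, γ, hψ⟩
    obtain ⟨φ', ⟨g, hg⟩, hφ⟩ := LTC.acts_iff hF σ γ hψ.1
    have h1 := (hφ _).1 hψ
    refine ⟨g, ?_⟩
    rw [h1]
    exact hg
  · rintro ⟨g, hg⟩
    obtain ⟨σ, ⟨s1, s2⟩, -⟩ := AC.exists_unique_reduction hF φ g hg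
    obtain ⟨g', hg', k1, k2⟩ := hg.symmC
    refine ⟨σ, g'.map (red p n), ⟨?_, g', s1, LTC.isIso_iff.2 hg', rfl⟩⟩
    have h := hg'.mapC (red p n)
    rw [C0.FG_map_map, s1, ← C0.FG_map_map, hF.reduction, AC.gamma_map] at h
    exact LTC.isIso_iff.2 h

theorem actIso_one : ActIso F 1 := by
  refine ⟨PowerSeries.X, ?_⟩
  have h : F.map ((1 : RingAut (P217.E0 p n)) : P217.E0 p n →+* P217.E0 p n) = F := C0.FG_map_id
  rw [h]
  exact C0.isIso_X

theorem ActIso.mul {φ ψ : RingAut (P217.E0 p n)} (hφ : ActIso F φ) (hψ : ActIso F ψ) :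
    ActIso F (φ * ψ) := by
  obtain ⟨g, hg⟩ := hφ
  obtain ⟨g', hg'⟩ := hψ
  have h1 := hg'.mapC (φ : P217.E0 p n →+* P217.E0 p n)
  rw [C0.FG_map_map] at h1
  exact ⟨_, hg.compC h1⟩

theorem ActIso.inv {φ : RingAut (P217.E0 p n)} (hφ : ActIso F φ) : ActIso F φ⁻¹ := by
  obtain ⟨g, hg⟩ := hφ
  have h1 := hg.mapC ((φ⁻¹ : RingAut (P217.E0 p n)) : P217.E0 p n →+* P217.E0 p n)
  rw [C0.FG_map_map] at h1
  have h2 : ((φ⁻¹ : RingAut (P217.E0 p n)) : P217.E0 p n →+* P217.E0 p n).comp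
      (φ : P217.E0 p n →+* P217.E0 p n) = RingHom.id _ := by
    ext x : 1
    exact φ.symm_apply_apply x
  rw [h2, C0.FG_map_id] at h1
  obtain ⟨g', hg', -, -⟩ := h1.symmC
  exact ⟨g', hg'⟩

/-- the elements of the action group. -/
theorem mem_actionGroup (hF : P217.IsUniversalDeformation p n Γ F) (φ : RingAut (P217.E0 p n)) :
    φ ∈ LT.actionGroup p n Γ F ↔
      ∃ σ γ, LT.Acts p n Γ F σ γ (φ : P217.E0 p n →+* P217.E0 p n) := by
  refine ⟨fun h => ?_, fun h => Subgroup.subset_closure h⟩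
  rw [acts_iff_actIso hF]
  refine Subgroup.closure_induction (p := fun φ _ => ActIso F φ) ?_ actIso_one
    (fun _ _ _ _ h1 h2 => h1.mul h2) (fun _ _ h1 => h1.inv) h
  intro φ hφ
  exact (acts_iff_actIso hF φ).1 hφ

/-! ### the congruence subgroups have finite index -/

theorem coeff_pow_congr {κ : Type*} [CommRing κ] {N : ℕ} {a b : PowerSeries κ}
    (h : ∀ i ≤ N, PowerSeries.coeff i a = PowerSeries.coeff i b) (k : ℕ) :
    ∀ i ≤ N, PowerSeries.coeff i (a ^ k) = PowerSeries.coeff i (b ^ k) := by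
  have h1 : (PowerSeries.X : PowerSeries κ) ^ (N + 1) ∣ a - b := by
    rw [PowerSeries.X_pow_dvd_iff]
    intro m hm
    rw [map_sub, h m (by omega), sub_self]
  have h2 := h1.trans (sub_dvd_pow_sub_pow a b k)
  rw [PowerSeries.X_pow_dvd_iff] at h2
  intro i hi
  have h3 := h2 i (by omega)
  rwa [map_sub, sub_eq_zero] at h3

theorem coeff_subst_congr {κ : Type*} [CommRing κ] {N : ℕ} {a b : PowerSeries κ}
    (ha : PowerSeries.constantCoeff a = 0) (hb : PowerSeries.constantCoeff b = 0)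
    (h : ∀ i ≤ N, PowerSeries.coeff i a = PowerSeries.coeff i b) (f : PowerSeries κ) :
    ∀ i ≤ N, PowerSeries.coeff i (PowerSeries.subst a f : PowerSeries κ) =
      PowerSeries.coeff i (PowerSeries.subst b f : PowerSeries κ) := by
  intro i hi
  rw [UF.coeff_subst_one ha, UF.coeff_subst_one hb]
  exact Finset.sum_congr rfl fun k _ => by rw [coeff_pow_congr h k i hi]

theorem inv_mul_mem {σ : GaloisField p n ≃+* GaloisField p n} {N : ℕ}
    {γ γ' : PowerSeries (GaloisField p n)} {φ ψ : RingAut (P217.E0 p n)}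
    (hF : P217.IsUniversalDeformation p n Γ F)
    (hφ : LT.Acts p n Γ F σ γ (φ : P217.E0 p n →+* P217.E0 p n))
    (hψ : LT.Acts p n Γ F σ γ' (ψ : P217.E0 p n →+* P217.E0 p n))
    (hγ : ∀ i ≤ N, PowerSeries.coeff i γ' = PowerSeries.coeff i γ) :
    φ⁻¹ * ψ ∈ LT.congruenceGroup p n Γ F N := by
  apply Subgroup.subset_closure
  obtain ⟨hg1, f1, a1, a2, a3⟩ := hφ
  obtain ⟨hg2, f2, b1, b2, b3⟩ := hψ
  have a2' := LTC.isIso_iff.1 a2
  have b2' := LTC.isIso_iff.1 b2
  obtain ⟨f1', hf1', k1, k2⟩ := a2'.symmC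
  have c1 := b2'.compC hf1'
  set φi : P217.E0 p n →+* P217.E0 p n := ((φ⁻¹ : RingAut (P217.E0 p n)) :
    P217.E0 p n →+* P217.E0 p n) with hφi
  have c2 := c1.mapC φi
  have e1 : φi.comp (φ : P217.E0 p n →+* P217.E0 p n) = RingHom.id _ := by
    ext x : 1
    exact φ.symm_apply_apply x
  have e2 : ((φ⁻¹ * ψ : RingAut (P217.E0 p n)) : P217.E0 p n →+* P217.E0 p n) =
      φi.comp (ψ : P217.E0 p n →+* P217.E0 p n) := rfl
  rw [C0.FG_map_map, C0.FG_map_map, e1, C0.FG_map_id, ← e2] at c2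
  set h := PowerSeries.map φi (PowerSeries.subst f2 f1' : PowerSeries (P217.E0 p n)) with hh
  -- reduction of `φ⁻¹`
  have e3 : (red p n).comp φi =
      ((σ.symm : GaloisField p n ≃+* GaloisField p n) : GaloisField p n →+* GaloisField p n).comp
        (red p n) := by
    ext x : 1
    have h1 := RingHom.congr_fun a1 (φi x)
    have h2 : (φ : P217.E0 p n →+* P217.E0 p n) (φi x) = x := φ.apply_symm_apply x
    simp only [RingHom.comp_apply] at h1 ⊢
    rw [h2] at h1
    have h3 : σ.symm ((red p n) x) = (red p n) (φi x) := by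
      rw [RingEquiv.symm_apply_eq]
      exact h1
    exact h3.symm
  have e4 : (red p n).comp ((φ⁻¹ * ψ : RingAut (P217.E0 p n)) : P217.E0 p n →+* P217.E0 p n) =
      ((RingEquiv.refl (GaloisField p n) : GaloisField p n ≃+* GaloisField p n) :
        GaloisField p n →+* GaloisField p n).comp (red p n) := by
    have b1' : (red p n).comp (ψ : P217.E0 p n →+* P217.E0 p n) =
      (σ : GaloisField p n →+* GaloisField p n).comp (red p n) := b1
    rw [e2, ← RingHom.comp_assoc, e3, RingHom.comp_assoc, b1', ← RingHom.comp_assoc]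
    congr 1
    ext x : 1
    exact σ.symm_apply_apply x
  refine ⟨h.map (red p n), ?_, ⟨?_, h, e4, LTC.isIso_iff.2 c2, rfl⟩⟩
  · intro i hi
    have a3' : PowerSeries.map (red p n) f1 = γ := a3
    have b3' : PowerSeries.map (red p n) f2 = γ' := b3
    have d1 : h.map (red p n) = PowerSeries.map
        ((σ.symm : GaloisField p n ≃+* GaloisField p n) : GaloisField p n →+* GaloisField p n)
        (PowerSeries.subst γ' (PowerSeries.map (red p n) f1') : PowerSeries (GaloisField p n)) := by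
      rw [hh, C0.ps_map_comp, e3, ← C0.ps_map_comp, C0.ps_map_subst _ b2'.1.1, b3']
    have d2 : (PowerSeries.subst γ (PowerSeries.map (red p n) f1') :
        PowerSeries (GaloisField p n)) = PowerSeries.X := by
      rw [← a3', ← C0.ps_map_subst _ a2'.1.1, k1, PowerSeries.map_X]
    have d3 := coeff_subst_congr (LTC.isIso_iff.1 hg2).1.1 (LTC.isIso_iff.1 hg1).1.1 hγ
      (PowerSeries.map (red p n) f1') i hi
    rw [d1, PowerSeries.coeff_map, d3, d2]
    rw [PowerSeries.coeff_X]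
    split_ifs
    · exact map_one _
    · exact map_zero _
  · have h1 := c2.mapC (red p n)
    rw [C0.FG_map_map, e4] at h1
    have e5 : ((RingEquiv.refl (GaloisField p n) : GaloisField p n ≃+* GaloisField p n) :
        GaloisField p n →+* GaloisField p n).comp (red p n) = red p n := rfl
    rw [e5, hF.reduction] at h1
    exact LTC.isIso_iff.2 h1

theorem congruenceGroup_le (N : ℕ) :
    LT.congruenceGroup p n Γ F N ≤ LT.actionGroup p n Γ F := by
  refine Subgroup.closure_mono ?_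
  rintro φ ⟨γ, -, h⟩
  exact ⟨_, γ, h⟩

theorem congruence_index (hF : P217.IsUniversalDeformation p n Γ F) (N : ℕ) :
    (LT.congruenceGroup p n Γ F N).relIndex (LT.actionGroup p n Γ F) ≠ 0 := by
  classical
  have hfin : Finite (GaloisField p n ≃+* GaloisField p n) :=
    Finite.of_injective (fun e => (e : GaloisField p n → GaloisField p n)) DFunLike.coe_injective
  set K := LT.actionGroup p n Γ F with hK
  set C := (LT.congruenceGroup p n Γ F N).subgroupOf K with hC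
  have hex : ∀ φ : K, ∃ σ γ, LT.Acts p n Γ F σ γ ((φ : RingAut (P217.E0 p n)) :
      P217.E0 p n →+* P217.E0 p n) := fun φ => (mem_actionGroup hF _).1 φ.2
  choose σ γ hσγ using hex
  let f : K → (GaloisField p n ≃+* GaloisField p n) × (Fin (N + 1) → GaloisField p n) :=
    fun φ => (σ φ, fun i => PowerSeries.coeff (i : ℕ) (γ φ))
  have key : ∀ φ ψ : K, f φ = f ψ → (QuotientGroup.mk φ : K ⧸ C) = QuotientGroup.mk ψ := by
    intro φ ψ h
    rw [QuotientGroup.eq]
    have h1 : σ φ = σ ψ := congrArg Prod.fst h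
    have h2 : ∀ i ≤ N, PowerSeries.coeff i (γ ψ) = PowerSeries.coeff i (γ φ) := by
      intro i hi
      exact (congrFun (congrArg Prod.snd h) ⟨i, by omega⟩).symm
    have h3 := hσγ ψ
    rw [← h1] at h3
    exact inv_mul_mem hF (hσγ φ) h3 h2
  have hinj : Function.Injective (fun q : K ⧸ C => f q.out) := by
    intro q q' h
    have := key _ _ h
    rwa [QuotientGroup.out_eq', QuotientGroup.out_eq'] at this
  have hfq : Finite (K ⧸ C) := Finite.of_injective _ hinj
  exact Subgroup.index_ne_zero_of_finite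

/-! ### the main theorem -/

theorem heightIdeal_mono {h h' : ℕ} (hle : h ≤ h') :
    P217.heightIdeal p n h ≤ P217.heightIdeal p n h' := by
  rcases Nat.eq_zero_or_pos h with rfl | h0
  · rw [P217.heightIdeal, if_pos rfl]
    exact bot_le
  · rw [P217.heightIdeal, P217.heightIdeal, if_neg (by omega), if_neg (by omega)]
    refine Ideal.span_mono (Set.union_subset_union_right _ ?_)
    rintro x ⟨i, hi, rfl⟩
    exact ⟨i, by omega, rfl⟩

theorem smul_eq_map (K : Subgroup (RingAut (P217.E0 p n))) (g : K) (J : Ideal (P217.E0 p n)) :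
    g • J = J.map ((g : RingAut (P217.E0 p n)) : P217.E0 p n →+* P217.E0 p n) := rfl

theorem chain (hn : 1 ≤ n) (hΓ : LT.IsHonda p n Γ) (hF : LT.IsUniversal p n Γ F)
    (hH : LT.HeightAdapted p n F) :
    Chain (LT.actionGroup p n Γ F) n (P217.heightIdeal p n) := by
  have hF' := LTC.isUniversal_iff.1 hF
  obtain ⟨-, hJ⟩ := LTC.main hn hΓ hF hH
  have hinv : ∀ J : Ideal (P217.E0 p n),
      LT.IsInvariant p n Γ F J ↔ ∀ g : LT.actionGroup p n Γ F, g • J = J := by
    intro J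
    constructor
    · intro h g
      obtain ⟨σ, γ, hg⟩ := (mem_actionGroup hF' _).1 g.2
      exact h σ γ _ hg
    · intro h σ γ ψ hψ
      obtain ⟨φ, -, hφ⟩ := LTC.acts_iff hF' σ γ hψ.1
      have h1 := (hφ ψ).1 hψ
      have h2 : (φ : RingAut (P217.E0 p n)) ∈ LT.actionGroup p n Γ F :=
        (mem_actionGroup hF' _).2 ⟨σ, γ, (hφ _).2 rfl⟩
      have h3 := h ⟨φ, h2⟩
      rw [h1]
      exact h3
  refine ⟨fun J h1 h2 => ((hJ J).2).1 ⟨h1, (hinv J).2 h2⟩, fun h hh => ?_, fun h hh g => ?_,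
    fun h h' hle _ => heightIdeal_mono hle⟩
  · exact (((hJ _).1).2 ⟨h, hh, rfl⟩).1
  · exact (hinv _).1 (((hJ _).1).2 ⟨h, hh, rfl⟩).2 g

universe u

/-- finite-index subgroups and modules. -/
theorem main_subgroup (hn : 1 ≤ n) (hΓ : LT.IsHonda p n Γ) (hF : LT.IsUniversal p n Γ F)
    (hH : LT.HeightAdapted p n F) (U : Subgroup (RingAut (P217.E0 p n)))
    (hU : U ≤ LT.actionGroup p n Γ F) (hfin : U.relIndex (LT.actionGroup p n Γ F) ≠ 0) :
    (∀ J : Ideal (LT.E0 p n),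
      ((J.IsPrime ∧ LT.InvariantUnder U J) ↔ ∃ h ≤ n, J = LT.heightIdeal p n h) ∧
      ((J.IsRadical ∧ LT.InvariantUnder U J) ↔ (J = ⊤ ∨ ∃ h ≤ n, J = LT.heightIdeal p n h))) ∧
    ∀ (M : Type u) [AddCommGroup M] [Module (LT.E0 p n) M] [Module.Finite (LT.E0 p n) M],
      (∀ φ ∈ U, ∃ T : M ≃+ M, LT.IsSemilinear φ T) →
      (∀ P ∈ associatedPrimes (LT.E0 p n) M, ∃ h ≤ n, P = LT.heightIdeal p n h) ∧
      ∃ (k : ℕ) (N : ℕ → Submodule (LT.E0 p n) M), N 0 = ⊥ ∧ N k = ⊤ ∧ ∀ i < k,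
        N i < N (i + 1) ∧
        (∀ φ ∈ LT.actionGroup p n Γ F, ∀ T : M ≃+ M, LT.IsSemilinear φ T →
          ∀ m, m ∈ N i ↔ T m ∈ N i) ∧
        ∃ h ≤ n, ∀ m ∈ N (i + 1), ∀ r : LT.E0 p n,
          r • m ∈ N i ↔ r ∈ LT.heightIdeal p n h ∨ m ∈ N i := by
  have hC := chain hn hΓ hF hH
  set K := LT.actionGroup p n Γ F with hK
  set V : Subgroup K := U.subgroupOf K with hV
  have hVf : V.FiniteIndex := ⟨hfin⟩
  have hinv : ∀ J : Ideal (P217.E0 p n), LT.InvariantUnder U J ↔ ∀ u ∈ V, u • J = J := by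
    intro J
    constructor
    · intro h u hu
      exact h u (Subgroup.mem_subgroupOf.1 hu)
    · intro h φ hφ
      exact h ⟨φ, hU hφ⟩ (Subgroup.mem_subgroupOf.2 hφ)
  refine ⟨fun J => ⟨⟨?_, ?_⟩, ⟨?_, ?_⟩⟩, ?_⟩
  · rintro ⟨h1, h2⟩
    exact hC.prime_of V h1 ((hinv J).1 h2)
  · rintro ⟨h, hh, rfl⟩
    exact ⟨hC.prime h hh, (hinv _).2 fun u _ => hC.inv h hh u⟩
  · rintro ⟨h1, h2⟩
    exact hC.radical_of V h1 ((hinv J).1 h2)
  · rintro (rfl | ⟨h, hh, rfl⟩)
    · exact ⟨fun _ _ => Submodule.mem_top, fun φ _ => Ideal.map_top _⟩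
    · exact ⟨(hC.prime h hh).isRadical, (hinv _).2 fun u _ => hC.inv h hh u⟩
  · intro M _ _ _ hM
    have hM' : ∀ u ∈ V, ∃ T : M ≃+ M, IsSemilin (R := P217.E0 p n) u T := by
      intro u hu
      exact hM u (Subgroup.mem_subgroupOf.1 hu)
    constructor
    · intro P hP
      refine hC.associated V hM' (canonical_bot (G := K)) (P := P) ?_
      rw [AssociatedPrimes.mem_iff] at hP ⊢
      exact (LinearEquiv.isAssociatedPrime_iff
        (Submodule.quotEquivOfEqBot (⊥ : Submodule (P217.E0 p n) M) rfl)).2 hP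
    · obtain ⟨k, s, h0, hk, hs⟩ := hC.filtration V hM' ⊥ (canonical_bot (G := K))
      refine ⟨k, s, h0, hk, fun i hi => ?_⟩
      obtain ⟨h1, h2, h3⟩ := hs i hi
      exact ⟨h1, fun φ hφ T hT m => h2 ⟨φ, hφ⟩ T hT m, h3⟩

end Vale.Agent.P217.H260
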